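import Vale.Agent.P092.CLT.Flip
import Vale.Agent.P092.H616.HA
import Vale.Agent.P092.H100.SU.Defs

/-!
P092, TRACK H, all amplifications (helper99): a leg of a finite family of vectors in the letters of
`CL/Defs`, with one more property `Rl` of the letters of points (all-`t` twin of helper616's
`H616/HA`, after helper421's `SPC/Leg`): amplification, transport, both legs from the first one;
the instance `O1` (Lemma O of order one).
-/

set_option linter.all false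

open scoped InnerProductSpace ENNReal ZeroAtInfty
open Filter Topology ContinuousLinearMap MeasureTheory TopologicalSpace

namespace Vale.Agent.P092.H99.HT

open Vale.Agent.P092.H333.Amp
open Vale.Agent.P092.RC (Cm TRN TRNF Moore PicF Tw cj cj_ap ampH ampH_ap ampW ampO adjV3)
open Vale.Agent.P092.SNT (TwF twF_flip)
open Vale.Agent.P092.SP.X (ampU ampU_ap)
open Vale.Agent.P092.H85 (cdat)
open Vale.Agent.P092.CL
open Vale.Agent.P092.CL.T (LegPF PBF NAMono leg_amp tw_legPF)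
open Vale.Agent.P092.H616.HA (HasLegR TwR)

section defs

variable {S P M V₁ V₂ : Type} [Group S] [MeasurableSpace V₁] [MeasurableSpace V₂]
  [TopologicalSpace S] [MulAction S P] [TopologicalSpace P] [CompactSpace P]
  [ContinuousConstSMul S P] [MulAction S M] [TopologicalSpace M] [CompactSpace M]
  [ContinuousConstSMul S M] [NormedAddCommGroup V₁] [NormedAddCommGroup V₂]

/-- the data of one leg of a family; the letters of points have the property `Rl` -/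
def HasLegRF (Rl : ∀ {K : Type} [NormedAddCommGroup K] [InnerProductSpace ℂ K],
      (C(P, ℂ) →ₗ[ℂ] (K →L[ℂ] K)) → Prop) (L : Lt S P M V₁ V₂)
    {E Γ K κ : Type} [Group E] [TopologicalSpace E] [Group Γ] [NormedAddCommGroup K]
    [InnerProductSpace ℂ K] [CompleteSpace K] [Fintype κ] (𝒰 : Ultrafilter ℕ) (ι : S →* E)
    (π : E →* (K →L[ℂ] K)) (lam : Γ →* (K →L[ℂ] K)) (W : Set (K →L[ℂ] K)) (Ω : κ → K)
    (m : Set Γ → (K →L[ℂ] K)) (q : Γ → S) : Prop :=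
  ∃ (U11 : P → (C(P, ℂ) →ₗ[ℂ] (K →L[ℂ] K))) (p11 : ℝ)
    (U12 : P → (C(M, ℂ) →ₗ[ℂ] (K →L[ℂ] K))) (p12 : ℝ)
    (U21 : M → (C(P, ℂ) →ₗ[ℂ] (K →L[ℂ] K))) (p21 : ℝ)
    (U22 : M → (C(M, ℂ) →ₗ[ℂ] (K →L[ℂ] K))) (p22 : ℝ),
    LegPF L 𝒰 ι π lam W Ω m q U11 p11 U12 p12 U21 p21 U22 p22 ∧
      (∀ c, Rl (U11 c)) ∧ ∀ l, Rl (U21 l)

/-- stable under amplification -/
def AmpR (Rl : ∀ {K : Type} [NormedAddCommGroup K] [InnerProductSpace ℂ K],
      (C(P, ℂ) →ₗ[ℂ] (K →L[ℂ] K)) → Prop) : Prop :=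
  ∀ (Q : Type) [Group Q] [Fintype Q] {K : Type} [NormedAddCommGroup K] [InnerProductSpace ℂ K]
    [CompleteSpace K] (U : C(P, ℂ) →ₗ[ℂ] (K →L[ℂ] K)), Rl U → Rl (ampU Q U)

end defs

/-! ### The amplification -/

section amp

variable {S P M V₁ V₂ : Type} [Group S] [MeasurableSpace V₁] [MeasurableSpace V₂]
  [TopologicalSpace S] [MulAction S P] [TopologicalSpace P] [CompactSpace P]
  [ContinuousConstSMul S P] [MulAction S M] [TopologicalSpace M] [CompactSpace M]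
  [ContinuousConstSMul S M] [NormedAddCommGroup V₁] [NormedAddCommGroup V₂]
  {Rl : ∀ {K : Type} [NormedAddCommGroup K] [InnerProductSpace ℂ K],
      (C(P, ℂ) →ₗ[ℂ] (K →L[ℂ] K)) → Prop} {L : Lt S P M V₁ V₂}
  {E Γ K κ : Type} [Group E] [TopologicalSpace E] [Group Γ] [NormedAddCommGroup K]
  [InnerProductSpace ℂ K] [CompleteSpace K] [Fintype κ] {𝒰 : Ultrafilter ℕ} {ι : S →* E}
  {π : E →* (K →L[ℂ] K)} {lam : Γ →* (K →L[ℂ] K)} {W : Set (K →L[ℂ] K)} {Ω : κ → K}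
  {m : Set Γ → (K →L[ℂ] K)} {q : Γ → S}

theorem base (h : HasLegRF Rl L 𝒰 ι π lam W Ω m q) : PBF L 𝒰 ι π lam W Ω m q := by
  obtain ⟨U11, p11, U12, p12, U21, p21, U22, p22, h, -, -⟩ := h
  exact h.base

/-- a leg with `Rl` is a leg -/
theorem toHasLegF (h : HasLegRF Rl L 𝒰 ι π lam W Ω m q) :
    CL.T.HasLegF L 𝒰 ι π lam W Ω m q := by
  obtain ⟨U11, p11, U12, p12, U21, p21, U22, p22, h, -, -⟩ := h
  exact ⟨U11, p11, U12, p12, U21, p21, U22, p22, h⟩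

/-- **For all sufficiently large amplifications there is one vector**, with `Rl`. -/
theorem exists_legR_amp [OpensMeasurableSpace V₁] [OpensMeasurableSpace V₂] (hA : AmpR Rl)
    (hG : Geo L) (hN : NAMono L) (h : HasLegRF Rl L 𝒰 ι π lam W Ω m q) :
    ∃ n : ℕ, ∀ (Q : Type) [Group Q] [Fintype Q], n ≤ Fintype.card Q → ∀ j : κ ↪ Q,
      HasLegR Rl L 𝒰 ι (ampH Q π) (ampH Q lam) (ampW Q W) (ampO j Ω)
        (fun S => H333.Amp.amp (Q := Q) (m S)) q := by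
  obtain ⟨U11, p11, U12, p12, U21, p21, U22, p22, h, h1, h2⟩ := h
  obtain ⟨n, hn⟩ := h.base.pic.exists_amp
  exact ⟨n, fun Q _ _ hQ j => ⟨_, p11, _, p12, _, p21, _, p22, leg_amp hG hN h j (hn Q hQ j),
    fun c => hA Q _ (h1 c), fun l => hA Q _ (h2 l)⟩⟩

end amp

/-! ### Transport -/

section tw

variable {S P M V₁ V₂ : Type} [Group S] [MeasurableSpace V₁] [MeasurableSpace V₂]
  [TopologicalSpace S] [MulAction S P] [TopologicalSpace P] [CompactSpace P]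
  [ContinuousConstSMul S P] [MulAction S M] [TopologicalSpace M] [CompactSpace M]
  [ContinuousConstSMul S M] [NormedAddCommGroup V₁] [NormedAddCommGroup V₂]
  {Rl : ∀ {K : Type} [NormedAddCommGroup K] [InnerProductSpace ℂ K],
      (C(P, ℂ) →ₗ[ℂ] (K →L[ℂ] K)) → Prop} {L : Lt S P M V₁ V₂}
  {K K' κ : Type} [Fintype κ] [NormedAddCommGroup K] [InnerProductSpace ℂ K] [CompleteSpace K]
  [NormedAddCommGroup K'] [InnerProductSpace ℂ K'] [CompleteSpace K'] {u : K ≃ₗᵢ[ℂ] K'}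
  {E Γ : Type} [Group E] [TopologicalSpace E] [Group Γ]
  {π : E →* (K →L[ℂ] K)} {lam : Γ →* (K →L[ℂ] K)}
  {W : Set (K →L[ℂ] K)} {Ω : κ → K} {π' : E →* (K' →L[ℂ] K')} {lam' : Γ →* (K' →L[ℂ] K')}
  {W' : Set (K' →L[ℂ] K')} {Ω' : κ → K'} {q : Γ → S} {𝒰 : Ultrafilter ℕ}
  {m : Set Γ → (K →L[ℂ] K)} {ι : S →* E}

/-- **Transport of the data of a leg.** -/
theorem tw_hasLegRF (hT : TwR Rl) (t : TwF u π lam W Ω π' lam' W' Ω')
    (h : HasLegRF Rl L 𝒰 ι π lam W Ω m q) :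
    HasLegRF Rl L 𝒰 ι π' lam' W' Ω' (fun S => cj u (m S)) q := by
  obtain ⟨U11, p11, U12, p12, U21, p21, U22, p22, h, h1, h2⟩ := h
  exact ⟨_, p11, _, p12, _, p21, _, p22, tw_legPF t h, fun c => hT u _ (h1 c),
    fun l => hT u _ (h2 l)⟩

end tw

/-! ### The concrete picture -/

section half

open Vale.Agent.P092.SR Vale.Agent.P092.H160 Vale.Agent.P092.H103 Vale.Agent.P092.H962
open Vale.Agent.P092.SDT (sT sT_sq sT_adj sT_V sT_A sT_B)

variable {S P M V₁ V₂ : Type} [Group S] [MeasurableSpace V₁] [MeasurableSpace V₂]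
  [TopologicalSpace S] [MulAction S P] [TopologicalSpace P] [CompactSpace P]
  [ContinuousConstSMul S P] [MulAction S M] [TopologicalSpace M] [CompactSpace M]
  [ContinuousConstSMul S M] [NormedAddCommGroup V₁] [NormedAddCommGroup V₂]

/-- **[CL-EX-T]** with `Rl`: the concrete picture over a source group `E`, all amplifications: both
legs. The families `Ω₁`, `Ω₂` are free. -/
def ExStmtRT (Rl : ∀ {K : Type} [NormedAddCommGroup K] [InnerProductSpace ℂ K],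
      (C(P, ℂ) →ₗ[ℂ] (K →L[ℂ] K)) → Prop) (L : Lt S P M V₁ V₂) {E : Type} [Group E]
    [TopologicalSpace E] [IsTopologicalGroup E]
    [LocallyCompactSpace E] [SecondCountableTopology E] [T2Space E] (ι : S →* E) : Prop :=
  ∀ [MeasurableSpace E] [BorelSpace E] {Γ : Subgroup E} [DiscreteTopology Γ] [Countable Γ]
    [MeasurableSpace (E ⧸ Γ)] [BorelSpace (E ⧸ Γ)] {ν : Measure (E ⧸ Γ)}
    [IsProbabilityMeasure ν] (hν : ∀ g : E, ν.map (fun x => g • x) = ν)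
    (_ : H515.St.IsLattice Γ) (_ : ∀ g : Γ, g ≠ 1 → Set.Infinite {y : Γ | ∃ h, y = h * g * h⁻¹})
    {Λ : Type} [Group Λ] [Countable Λ]
    (_ : ∀ g : Λ, g ≠ 1 → Set.Infinite {y : Λ | ∃ h, y = h * g * h⁻¹})
    {I : Type} [Fintype I] {α : Γ → (Ell2 (I × Λ) →L[ℂ] Ell2 (I × Λ))} (hα : AF α),
    ∃ (𝒰 : Ultrafilter ℕ) (κ₁ κ₂ : Type) (_ : Fintype κ₁) (_ : Fintype κ₂)
      (Ω₁ : κ₁ → Lp (HH (PT α α α)) 2 (cdat ν hν).μ) (Ω₂ : κ₂ → Lp (HH (PT α α α)) 2 (cdat ν hν).μ)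
      (m₁ m₂ : Set Γ → (Lp (HH (PT α α α)) 2 (cdat ν hν).μ →L[ℂ]
        Lp (HH (PT α α α)) 2 (cdat ν hν).μ)) (q₁ q₂ : Γ → S),
      HasLegRF Rl L 𝒰 ι (H34.Ind.pi (cdat ν hν) (V := V3 hα hα hα) (adjV3 hα))
        (H34.Ind.lam (cdat ν hν) (A3R hα hα hα))
        (H34.Ind.Xset (cdat ν hν) (HH (PT α α α)) ∪
          Set.range (H34.Ind.lam (cdat ν hν) (B3R hα hα hα))) Ω₁ m₁ q₁ ∧
      HasLegRF Rl L 𝒰 ι (H34.Ind.pi (cdat ν hν) (V := V3 hα hα hα) (adjV3 hα))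
        (H34.Ind.lam (cdat ν hν) (B3R hα hα hα))
        (H34.Ind.Xset (cdat ν hν) (HH (PT α α α)) ∪
          Set.range (H34.Ind.lam (cdat ν hν) (A3R hα hα hα))) Ω₂ m₂ q₂ ∧
      (∀ γ, q₁ γ ∈ L.Z → γ = 1) ∧ (∀ γ, q₂ γ ∈ L.Z → γ = 1)

/-- **[CL-HALF-T]** with `Rl`: the first leg. -/
def ExHalfRT (Rl : ∀ {K : Type} [NormedAddCommGroup K] [InnerProductSpace ℂ K],
      (C(P, ℂ) →ₗ[ℂ] (K →L[ℂ] K)) → Prop) (L : Lt S P M V₁ V₂) {E : Type} [Group E]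
    [TopologicalSpace E] [IsTopologicalGroup E]
    [LocallyCompactSpace E] [SecondCountableTopology E] [T2Space E] (ι : S →* E) : Prop :=
  ∀ [MeasurableSpace E] [BorelSpace E] {Γ : Subgroup E} [DiscreteTopology Γ] [Countable Γ]
    [MeasurableSpace (E ⧸ Γ)] [BorelSpace (E ⧸ Γ)] {ν : Measure (E ⧸ Γ)}
    [IsProbabilityMeasure ν] (hν : ∀ g : E, ν.map (fun x => g • x) = ν)
    (_ : H515.St.IsLattice Γ) (_ : ∀ g : Γ, g ≠ 1 → Set.Infinite {y : Γ | ∃ h, y = h * g * h⁻¹})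
    {Λ : Type} [Group Λ] [Countable Λ]
    (_ : ∀ g : Λ, g ≠ 1 → Set.Infinite {y : Λ | ∃ h, y = h * g * h⁻¹})
    {I : Type} [Fintype I] {α : Γ → (Ell2 (I × Λ) →L[ℂ] Ell2 (I × Λ))} (hα : AF α),
    ∃ (𝒰 : Ultrafilter ℕ) (κ : Type) (_ : Fintype κ)
      (Ω : κ → Lp (HH (PT α α α)) 2 (cdat ν hν).μ)
      (m : Set Γ → (Lp (HH (PT α α α)) 2 (cdat ν hν).μ →L[ℂ]
        Lp (HH (PT α α α)) 2 (cdat ν hν).μ)) (q : Γ → S),
      HasLegRF Rl L 𝒰 ι (H34.Ind.pi (cdat ν hν) (V := V3 hα hα hα) (adjV3 hα))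
        (H34.Ind.lam (cdat ν hν) (A3R hα hα hα))
        (H34.Ind.Xset (cdat ν hν) (HH (PT α α α)) ∪
          Set.range (H34.Ind.lam (cdat ν hν) (B3R hα hα hα))) Ω m q ∧
      (∀ γ, q γ ∈ L.Z → γ = 1)

/-- **The second leg is the flip of the first one.** -/
theorem exRT_of_half {Rl : ∀ {K : Type} [NormedAddCommGroup K] [InnerProductSpace ℂ K],
      (C(P, ℂ) →ₗ[ℂ] (K →L[ℂ] K)) → Prop} {L : Lt S P M V₁ V₂} {E : Type} [Group E]
    [TopologicalSpace E]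
    [IsTopologicalGroup E] [LocallyCompactSpace E] [SecondCountableTopology E] [T2Space E]
    {ι : S →* E} (hT : TwR Rl) (h : ExHalfRT Rl L ι) : ExStmtRT Rl L ι := by
  intro _ _ Γ _ _ _ _ ν _ hν hΓ hicc Λ _ _ hΛ I _ α hα
  obtain ⟨𝒰, κ, iκ, Ω, m, q, l1, h1⟩ := h (Γ := Γ) hν hΓ hicc hΛ hα
  exact ⟨𝒰, κ, κ, iκ, iκ, Ω, _, m, _, q, q, l1,
    tw_hasLegRF hT (twF_flip hν (sT_sq hα) (sT_adj hα) (sT_V hα) (sT_A hα) (sT_B hα) (adjV3 hα) Ω)
      l1, h1, h1⟩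

end half

/-! ### Lemma O of order one -/

section o1

open Vale.Agent.P092.H100.SU (O1 Sec1 Far1)

variable {n : ℕ} {P : Type} [TopologicalSpace P] [CompactSpace P]
  {X : C(P, Matrix (Fin n) (Fin n) ℂ)} {D : Matrix (Fin n) (Fin n) ℂ}

/-- amplification as an additive map -/
noncomputable def ampA (Q K : Type) [Group Q] [Fintype Q] [NormedAddCommGroup K]
    [InnerProductSpace ℂ K] [CompleteSpace K] : (K →L[ℂ] K) →+ (KT Q K →L[ℂ] KT Q K) where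
  toFun := H333.Amp.amp
  map_zero' := amp_zero
  map_add' := amp_add

theorem o1_amp {Q K : Type} [Group Q] [Fintype Q] [NormedAddCommGroup K]
    [InnerProductSpace ℂ K] [CompleteSpace K] {U : C(P, ℂ) →ₗ[ℂ] (K →L[ℂ] K)}
    (h : O1 X D U) : O1 X D (ampU Q U) := by
  intro r u v C δ hδ h1 h2
  have e : ∀ i, ampU Q U (u i) * ampU Q U (v i) = ampA Q K (U (u i) * U (v i)) := fun i => by
    rw [ampU_ap, ampU_ap]
    exact (amp_mul _ _).symm
  rw [Finset.sum_congr rfl fun i _ => e i, ← map_sum, h r u v C δ hδ h1 h2, map_zero]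

theorem ampR_O1 : AmpR (P := P) (fun {K} _ _ U => O1 X D U) := by
  intro Q _ _ K _ _ _ U h
  exact o1_amp h

theorem tw_O1 {K K' : Type} [NormedAddCommGroup K] [InnerProductSpace ℂ K] [CompleteSpace K]
    [NormedAddCommGroup K'] [InnerProductSpace ℂ K'] [CompleteSpace K'] (u : K ≃ₗᵢ[ℂ] K')
    {U : C(P, ℂ) →ₗ[ℂ] (K →L[ℂ] K)} (h : O1 X D U) : O1 X D (H53.TwX.cjU u U) := by
  intro r f g C δ hδ h1 h2
  have e : ∀ i, H53.TwX.cjU u U (f i) * H53.TwX.cjU u U (g i) = cj u (U (f i) * U (g i)) :=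
    fun i => by rw [H53.TwX.cjU_ap, H53.TwX.cjU_ap, map_mul]
  rw [Finset.sum_congr rfl fun i _ => e i, ← map_sum, h r f g C δ hδ h1 h2, map_zero]

theorem twR_O1 : TwR (P := P) (fun {K} _ _ U => O1 X D U) := by
  intro K K' _ _ _ _ _ _ u U h
  exact tw_O1 u h

end o1

end Vale.Agent.P092.H99.HT
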