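import Vale.Agent.P092.H99.HT.Fin
import Vale.Agent.P092.CLT.OverR
import Vale.Agent.P092.CLT.AsmX
import Vale.Agent.P092.UN.NfUV

/-!
P092, TRACK H, [OV] (helper99): `PSU(2, n)` over `ℂ`: the core statement for all irreducible systems,
`HasOver` for the class `UN.LatticeUC`, and its ICC overgroups of finite index.
-/

set_option linter.all false

open scoped InnerProductSpace ENNReal
open Filter Topology ContinuousLinearMap MeasureTheory TopologicalSpace Matrix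

namespace Vale.Agent.P092.H99.HT

open Vale.Agent.P092.CL
open Vale.Agent.P092.CL.T (ExStmtSW ExStmtSR exStmtSR_of_W overStmt_ofR)
open Vale.Agent.P092.H303 (FormGroup Idx hyp)
open Vale.Agent.P092.H714.Cl
open Vale.Agent.P092.H370.Po (SGr Inc Sing WI)
open Vale.Agent.P092.H933 (LeviGap LocK)
open Vale.Agent.P092.H100.SU (O1 Sec1 Far1)
open Vale.Agent.P092.H375.SU (XH PH Dg exists_dg dictH1 locK_complex oneStmtR_ltH)
open Vale.Agent.P092.H616.HA (TwR OneStmtR)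
open Vale.Agent.P092.H632.T2 (gau BpX gauOk_x)
open Vale.Agent.P092.H85.CU (NfD)
open Vale.Agent.P092.H678.OV (OverStmt HasOver superAll_virt)

variable {ι : Type} [Fintype ι] [DecidableEq ι] {J₀ : Matrix ι ι ℂ} {w : ℂ}

/-- **[OV] for every admissible source group over `SU(2, n)`.** -/
theorem overStmt_su_adm [Fact (Continuous (starRingEnd ℂ))] {E : Type} [Group E]
    [TopologicalSpace E] [IsTopologicalGroup E] [LocallyCompactSpace E]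
    [SecondCountableTopology E] [T2Space E]
    {i : FormGroup (starRingEnd ℂ) (hyp (0 + 2) 1 J₀) →* E} (h : NfD (starRingEnd ℂ) 1 J₀ 0)
    (hw : w ≠ 0) (hσ : starRingEnd ℂ w = w) (hw1 : ‖w‖ < 1) (μ₁ : Measure ℂ)
    (μ₂ : Measure (V2 (starRingEnd ℂ) 1)) [μ₁.IsAddHaarMeasure] [μ₂.IsAddHaarMeasure]
    (hA : Adm (lt h.frm hw hσ μ₁ μ₂) i) : OverStmt E := by
  have hF := h.frm
  have hW := h.wi
  have hσn := h.hn
  have hG := geo hF hW hσn hw hσ hw1 μ₁ μ₂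
  haveI := H71.CLG.v2_proper (σ := starRingEnd ℂ) (ε := (1 : ℂ)) hσn
  obtain ⟨N, ⟨e⟩⟩ := exists_eqv 0 ι
  obtain ⟨Λ, c, D, hD⟩ := exists_dg hF e
  obtain ⟨c₀, F, bp, bm, hc, hbp, hT⟩ := gauOk_x locK_complex hσn e hF hW hw hσ μ₁ μ₂
  have hOne : OneStmtR (fun {K} _ _ U => O1 (XH Λ (starRingEnd ℂ) (hyp (0 + 2) 1 J₀)) D U)
      (lt hF hw hσ μ₁ μ₂) := @oneStmtR_ltH ι _ _ J₀ _ h w hw hσ hw1 μ₁ μ₂ _ _ (N + 1) Λ c D hD
  obtain ⟨g1, g2⟩ := H71.CLP.gap_lt hF hσn locK_complex hw hσ hw1 h.two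
  have hX : ExStmtSW (lt hF hw hσ μ₁ μ₂) (gau e (0 + 2) (MonoidHom.id _) bp bm) i :=
    @CL.T.exStmtSW_lt ℂ _ _ _ _ ι _ _ 0 (starRingEnd ℂ) _ 1 J₀ w E _ _ _ _ _ _ i locK_complex hσn
      hw hσ hw1 μ₁ μ₂ _ _ hF hW hA g1 g2 N e bp bm hT
  have hC : CntW (fun {K} _ _ U => O1 (XH Λ (starRingEnd ℂ) (hyp (0 + 2) 1 J₀)) D U)
      (lt hF hw hσ μ₁ μ₂) (gau e (0 + 2) (MonoidHom.id _) bp bm) :=
    @cntW_su ι _ _ J₀ w _ h hw hσ μ₁ μ₂ (N + 1) N Λ c D hD e c₀ F bp bm hc hbp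
  have hR : ExStmtSR (fun {K} _ _ U => O1 (XH Λ (starRingEnd ℂ) (hyp (0 + 2) 1 J₀)) D U)
      (lt hF hw hσ μ₁ μ₂) i := exStmtSR_of_W hC hX
  have hAm : AmpR (fun {K} _ _ U => O1 (XH Λ (starRingEnd ℂ) (hyp (0 + 2) 1 J₀)) D U) :=
    @ampR_O1 (N + 1) (SGr (starRingEnd ℂ) (hyp (0 + 2) 1 J₀) 1) _ _
      (XH Λ (starRingEnd ℂ) (hyp (0 + 2) 1 J₀)) D
  have hCls : ClsStmt e (lt hF hw hσ μ₁ μ₂) := clsStmt_lt e hF hW hw hσ μ₁ μ₂ hG
  exact overStmt_ofR e hF hW (Nat.le_add_left 2 0) hG hA (H325.CL.sc_lt e hF hw hσ μ₁ μ₂)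
    (H325.CL.nmc_lt e hF hw hσ μ₁ μ₂) hAm hOne hCls (CL.T.naMono_lt hF hw hσ μ₁ μ₂) hR

/-- **[OV] for `PSU(2, n)`.** -/
theorem overStmt_su (ι : Type) [Fintype ι] [DecidableEq ι] (J₀ : Matrix ι ι ℂ)
    (h : NfD (starRingEnd ℂ) 1 J₀ 0) : OverStmt (FormGroup (starRingEnd ℂ) (hyp (0 + 2) 1 J₀) ⧸
      Subgroup.center (FormGroup (starRingEnd ℂ) (hyp (0 + 2) 1 J₀))) := by
  have hF := h.frm
  have hσn := h.hn
  haveI : Fact (Continuous (starRingEnd ℂ)) := ⟨continuous_of_norm hσn⟩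
  haveI := H71.CLG.v2_proper (σ := starRingEnd ℂ) (ε := (1 : ℂ)) hσn
  haveI := H874.CLAdm.t2_quo hF
    (Z := Subgroup.center (FormGroup (starRingEnd ℂ) (hyp (0 + 2) 1 J₀))) le_rfl
  haveI := H874.CLAdm.lc_quo hσn
    (Subgroup.center (FormGroup (starRingEnd ℂ) (hyp (0 + 2) 1 J₀)))
  haveI := H874.CLAdm.sc_quo
    (Subgroup.center (FormGroup (starRingEnd ℂ) (hyp (0 + 2) 1 J₀)))
  have hw : (1 / 2 : ℂ) ≠ 0 := by norm_num
  have hσ : starRingEnd ℂ (1 / 2 : ℂ) = 1 / 2 := by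
    rw [map_div₀, map_one, map_ofNat]
  have hw1 : ‖(1 / 2 : ℂ)‖ < 1 := by
    rw [norm_div, norm_one, RCLike.norm_ofNat]
    norm_num
  exact overStmt_su_adm h hw hσ hw1 Measure.addHaar Measure.addHaar
    (H874.CLAdm.adm_cen hσn hF hw hσ _ _)

/-- **The class `LatticeUC`**: lattices of groups with the core statement for systems. -/
theorem hasOver_su : ∀ (Γ : Type) [Group Γ], UN.LatticeUC Γ → HasOver Γ :=
  UN.hasOver_latticeUC_of fun ι _ _ J₀ h => overStmt_su ι J₀ h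

/-- **ICC overgroups of finite index of the groups of `LatticeUC`.** -/
theorem virt_su {Γ : Type} [Group Γ] (hicc : UN.ICC Γ) {Γ₀ : Subgroup Γ} (hfi : Γ₀.FiniteIndex)
    (h : UN.LatticeUC Γ₀) : UN.SuperAll Γ :=
  superAll_virt hicc hfi (hasOver_su Γ₀ h)

end Vale.Agent.P092.H99.HT
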