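import Vale.Agent.P092.H99.HT.Main
import Vale.Agent.P092.CL.GeoF
import Vale.Agent.P092.CL.FrmP
import Vale.Agent.P092.H325.ClXl
import Vale.Agent.P092.H416.CLas
import Vale.Agent.P092.H958.NaLt
import Vale.Agent.P092.H874.CLAdm

/-!
P092, TRACK H, all amplifications (helper99, after helper21's CLT/Asm): the assembly for the letters
`CL.lt` from two joints with one more property `Rl` of the letters of points: `OneStmtR Rl (lt ..)`
and the first leg `ExHalfRT Rl (lt ..) i`.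
-/

set_option linter.all false

open scoped InnerProductSpace ENNReal
open Filter Topology MeasureTheory TopologicalSpace Matrix

namespace Vale.Agent.P092.H99.HT

open Vale.Agent.P092.CL
open Vale.Agent.P092.H303 (FormGroup Idx hyp)
open Vale.Agent.P092.H714.Cl
open Vale.Agent.P092.H370.Po (SGr Inc Sing WI)
open Vale.Agent.P092.SNT (CoreAllE)
open Vale.Agent.P092.H933 (LeviGap LocK)
open Vale.Agent.P092.H616.HA (HasLegR TwR OneStmtR)

section asm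

variable {k : Type} [NontriviallyNormedField k] [ProperSpace k] [MeasurableSpace k]
  [BorelSpace k] {ι : Type} [Fintype ι] [DecidableEq ι] {s : ℕ} {σ : k →+* k}
  [Fact (Continuous σ)] {ε : k} {J₀ : Matrix ι ι k} {w : k} {E : Type} [Group E]
  [TopologicalSpace E] [IsTopologicalGroup E] [LocallyCompactSpace E]
  [SecondCountableTopology E] [T2Space E]
  {Rl : ∀ {K : Type} [NormedAddCommGroup K] [InnerProductSpace ℂ K],
      (C(SGr σ (hyp (s + 2) ε J₀) 1, ℂ) →ₗ[ℂ] (K →L[ℂ] K)) → Prop}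

theorem exists_eqv (s : ℕ) (ι : Type) [Fintype ι] [DecidableEq ι] :
    ∃ N, Nonempty (Idx (s + 2) ι ≃ Fin (N + 1)) := by
  have h0 : Fintype.card (Idx (s + 2) ι) ≠ 0 := by
    have : Fintype.card (Idx (s + 2) ι) = (s + 2) + (s + 2) + Fintype.card ι := by
      unfold Idx
      rw [Fintype.card_sum, Fintype.card_sum, Fintype.card_fin]
    omega
  obtain ⟨N, hN⟩ := Nat.exists_eq_succ_of_ne_zero h0
  exact ⟨N, ⟨Fintype.equivFinOfCardEq hN⟩⟩

omit [ProperSpace k] [BorelSpace k] in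
/-- **[CL-CLS]** for the letters `lt` -/
theorem clsStmt_lt [ProperSpace k] {N : ℕ} (e : Idx (s + 2) ι ≃ Fin (N + 1))
    (hF : Frm σ ε (hyp (s + 2) ε J₀)) (hW : WI σ (hyp (s + 2) ε J₀) (s + 2)) (hw : w ≠ 0)
    (hσ : σ w = w) (μ₁ : Measure k) (μ₂ : Measure (V2 σ ε)) (hG : Geo (lt hF hw hσ μ₁ μ₂)) :
    ClsStmt e (lt hF hw hσ μ₁ μ₂) := by
  intro E' Γ K _ _ _ _ _ _ 𝒰 ι π lam W Ω m q Ec F h
  exact H416.CLG.clsCL hG rfl e hF hW (Nat.le_add_left 2 s) h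

/-- **The core, all amplifications, for every admissible source group**, from the two joints with
`Rl`. -/
theorem coreAllE_admR {i : FormGroup σ (hyp (s + 2) ε J₀) →* E}
    (hσn : ∀ x, ‖σ x‖ = ‖x‖) (hw : w ≠ 0) (hσ : σ w = w) (hw1 : ‖w‖ < 1) (μ₁ : Measure k)
    (μ₂ : Measure (V2 σ ε)) [μ₁.IsAddHaarMeasure] [μ₂.IsAddHaarMeasure]
    (hF : Frm σ ε (hyp (s + 2) ε J₀)) (hW : WI σ (hyp (s + 2) ε J₀) (s + 2))
    (hA : Adm (lt hF hw hσ μ₁ μ₂) i) (hAm : AmpR Rl) (hTw : TwR Rl)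
    (hOne : OneStmtR Rl (lt hF hw hσ μ₁ μ₂)) (hEx : ExHalfRT Rl (lt hF hw hσ μ₁ μ₂) i) :
    CoreAllE E := by
  have hG := geo hF hW hσn hw hσ hw1 μ₁ μ₂
  obtain ⟨N, ⟨e⟩⟩ := exists_eqv s ι
  exact coreAllE_ofR_half e hF hW (Nat.le_add_left 2 s) hG hA (H325.CL.sc_lt e hF hw hσ μ₁ μ₂)
    (H325.CL.nmc_lt e hF hw hσ μ₁ μ₂) hAm hTw hOne (clsStmt_lt e hF hW hw hσ μ₁ μ₂ hG)
    (CL.T.naMono_lt hF hw hσ μ₁ μ₂) hEx

omit [Fact (Continuous σ)] [MeasurableSpace k] [BorelSpace k] in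
/-- **The core, all amplifications, for `PSU(J)`**, Witt index `s + 2 ≥ 2`, from the two joints with
`Rl`. -/
theorem coreAllE_cenR (hσn : ∀ x, ‖σ x‖ = ‖x‖) (hF : Frm σ ε (hyp (s + 2) ε J₀))
    (hW : WI σ (hyp (s + 2) ε J₀) (s + 2)) (hAm : AmpR Rl) (hTw : TwR Rl)
    (hOne : ∀ [MeasurableSpace k] [BorelSpace k] [Fact (Continuous σ)] {w : k} (hw : w ≠ 0)
      (hσ : σ w = w) (_ : ‖w‖ < 1) (μ₁ : Measure k) (μ₂ : Measure (V2 σ ε))
      [μ₁.IsAddHaarMeasure] [μ₂.IsAddHaarMeasure], OneStmtR Rl (lt hF hw hσ μ₁ μ₂))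
    (hEx : ∀ [MeasurableSpace k] [BorelSpace k] [Fact (Continuous σ)]
      [LocallyCompactSpace (FormGroup σ (hyp (s + 2) ε J₀) ⧸
        Subgroup.center (FormGroup σ (hyp (s + 2) ε J₀)))]
      [SecondCountableTopology (FormGroup σ (hyp (s + 2) ε J₀) ⧸
        Subgroup.center (FormGroup σ (hyp (s + 2) ε J₀)))]
      [T2Space (FormGroup σ (hyp (s + 2) ε J₀) ⧸
        Subgroup.center (FormGroup σ (hyp (s + 2) ε J₀)))] {w : k} (hw : w ≠ 0)
      (hσ : σ w = w) (_ : ‖w‖ < 1) (μ₁ : Measure k) (μ₂ : Measure (V2 σ ε))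
      [μ₁.IsAddHaarMeasure] [μ₂.IsAddHaarMeasure],
      Adm (lt hF hw hσ μ₁ μ₂) (QuotientGroup.mk'
        (Subgroup.center (FormGroup σ (hyp (s + 2) ε J₀)))) →
      ExHalfRT Rl (lt hF hw hσ μ₁ μ₂) (QuotientGroup.mk'
        (Subgroup.center (FormGroup σ (hyp (s + 2) ε J₀))))) :
    CoreAllE (FormGroup σ (hyp (s + 2) ε J₀) ⧸
      Subgroup.center (FormGroup σ (hyp (s + 2) ε J₀))) := by
  letI : MeasurableSpace k := borel k
  haveI : BorelSpace k := ⟨rfl⟩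
  have hσc : Continuous σ := continuous_of_norm hσn
  haveI : Fact (Continuous σ) := ⟨hσc⟩
  haveI := H71.CLG.v2_proper (ε := ε) hσn
  haveI := H874.CLAdm.t2_quo hF (Z := Subgroup.center (FormGroup σ (hyp (s + 2) ε J₀))) le_rfl
  haveI := H874.CLAdm.lc_quo hσn
    (Subgroup.center (FormGroup σ (hyp (s + 2) ε J₀)))
  haveI := H874.CLAdm.sc_quo (Subgroup.center (FormGroup σ (hyp (s + 2) ε J₀)))
  obtain ⟨r, hr, hr1⟩ := exists_fix hF hσn
  have hr0 : r ≠ 0 := by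
    rintro rfl
    rw [norm_zero] at hr1
    linarith
  have hw : r⁻¹ ≠ 0 := inv_ne_zero hr0
  have hσ : σ r⁻¹ = r⁻¹ := by rw [map_inv₀, hr]
  have hw1 : ‖r⁻¹‖ < 1 := by
    rw [norm_inv]
    exact inv_lt_one_of_one_lt₀ hr1
  have hA := H874.CLAdm.adm_cen hσn hF hw hσ (Measure.addHaar : Measure k)
    (Measure.addHaar : Measure (V2 σ ε))
  have h1 := @hOne _ _ _ _ hw hσ hw1 Measure.addHaar Measure.addHaar _ _
  have h2 := @hEx _ _ _ _ _ _ _ hw hσ hw1 Measure.addHaar Measure.addHaar _ _ hA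
  exact coreAllE_admR hσn hw hσ hw1 Measure.addHaar Measure.addHaar hF hW hA hAm hTw h1 h2

end asm

end Vale.Agent.P092.H99.HT
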