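import Vale.Agent.P092.UN.NfUC
import Vale.Agent.P092.SNT.Main

/-!
P092, TRACK H, all amplifications (helper99, after helper85's UN/NfUC and UN/NfUT): the class
`UN.LatticeUC` from the core statement `SNT.CoreAllE` of `PSU(2, n)`.
-/

set_option linter.all false

open Matrix Filter Topology

namespace Vale.Agent.P092.H99.HT

open Vale.Agent.P092.UN
open Vale.Agent.P092.H303 (FormGroup hyp Idx)
open Vale.Agent.P092.H684.Psp (NC lat_nc)
open Vale.Agent.P092.H714.Cl
open Vale.Agent.P092.SNT (CoreAllE superAll_of_coreAllE)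
open Vale.Agent.P092.H85.CU (NfD)

/-- **One group**, any local field, all amplifications: the core statement of `SU(J) ⧸ centre` gives
the ICC lattices of all groups with a proper central quotient `SU(J) ⧸ centre`. -/
theorem superAll_unit {E : Type} [Group E] [TopologicalSpace E] {k : Type}
    [NontriviallyNormedField k] [ProperSpace k] {σ : k →+* k} {ε : k} {ι : Type} [Fintype ι]
    [DecidableEq ι] {J₀ : Matrix ι ι k} {s : ℕ} (hD : NfD σ ε J₀ s)
    (hNC : NC E (FormGroup σ (hyp (s + 2) ε J₀) ⧸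
      Subgroup.center (FormGroup σ (hyp (s + 2) ε J₀))))
    (h : CoreAllE (FormGroup σ (hyp (s + 2) ε J₀) ⧸
      Subgroup.center (FormGroup σ (hyp (s + 2) ε J₀)))) {Γ : Type} [Group Γ]
    (hicc : ICC Γ) (i : Γ →* E) (hi : Function.Injective i) (hl : IsLattice i.range) :
    SuperAll Γ := by
  haveI : LocallyCompactSpace (FormGroup σ (hyp (s + 2) ε J₀)) := by
    haveI : LocallyCompactSpace (SpecialLinearGroup (Idx (s + 2) ι) k) := H303.locallyCompact_SL
    exact (H303.isClosed_formGroup (continuous_of_norm hD.hn) _).isClosedEmbedding_subtypeVal.locallyCompactSpace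
  haveI : IsClosed (Subgroup.center (FormGroup σ (hyp (s + 2) ε J₀)) :
      Set (FormGroup σ (hyp (s + 2) ε J₀))) := (finite_centerD hD).isClosed
  obtain ⟨i', hi', hl'⟩ := lat_nc hNC hicc i hi ((isLattice_iff _).1 hl)
  exact superAll_of (superAll_of_coreAllE h hicc i' hi' hl')

/-- **The class `LatticeUC`, all amplifications.** -/
theorem superAll_latticeUC (h : ∀ (ι : Type) [Fintype ι] [DecidableEq ι] (J₀ : Matrix ι ι ℂ),
    NfD (starRingEnd ℂ) 1 J₀ 0 → CoreAllE (FormGroup (starRingEnd ℂ) (hyp (0 + 2) 1 J₀) ⧸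
      Subgroup.center (FormGroup (starRingEnd ℂ) (hyp (0 + 2) 1 J₀)))) :
    ∀ (Γ : Type) [Group Γ], LatticeUC Γ → SuperAll Γ := by
  rintro Γ _ ⟨hicc, E, _, _, i, ht, hi, hl⟩
  obtain ⟨ι, _, _, J₀, hD, hNC⟩ := nf_typeUC ht
  exact superAll_unit hD hNC (h ι J₀ hD) hicc i hi hl

end Vale.Agent.P092.H99.HT
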