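import Vale.Agent.P092.H99.HT.Adm
import Vale.Agent.P092.H99.HT.Un
import Vale.Agent.P092.CLT.BrW
import Vale.Agent.P092.CL.UniC
import Vale.Agent.P092.H375.SU.One
import Vale.Agent.P092.H21.C.MassC
import Vale.Agent.P092.H923.PJ9
import Vale.Agent.P092.H71.P.CLGap2
import Vale.Agent.P092.H574.H7

/-!
P092, TRACK H, all amplifications (helper99): `PSU(2, n)` over `ℂ`: the core statement without open
input, and the class `UN.LatticeUC`.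
-/

set_option linter.all false

open scoped InnerProductSpace ENNReal
open Filter Topology ContinuousLinearMap MeasureTheory TopologicalSpace Matrix

namespace Vale.Agent.P092.H99.HT

open Vale.Agent.P092.CL
open Vale.Agent.P092.CL.T (ExHalfTW exHalfTW_of exHalfRT_of_W)
open Vale.Agent.P092.H303 (FormGroup Idx hyp)
open Vale.Agent.P092.H714.Cl
open Vale.Agent.P092.H370.Po (SGr Inc Sing WI)
open Vale.Agent.P092.SNT (CoreAllE)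
open Vale.Agent.P092.H933 (LeviGap LocK)
open Vale.Agent.P092.H100.SU (O1 Sec1 Far1)
open Vale.Agent.P092.H375.SU (XH PH Dg exists_dg dictH1 locK_complex oneStmtR_ltH)
open Vale.Agent.P092.H616.HA (TwR OneStmtR)
open Vale.Agent.P092.H632.T2 (gau BpX gauOk_x)
open Vale.Agent.P092.H85.CU (NfD)

variable {ι : Type} [Fintype ι] [DecidableEq ι] {J₀ : Matrix ι ι ℂ} {w : ℂ}

/-- the anisotropic kernel in the letters of `hf` -/
theorem an_hf (h : NfD (starRingEnd ℂ) 1 J₀ 0) : ∀ v, hf (starRingEnd ℂ) J₀ v v = 0 → v = 0 :=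
  fun v hv => by
    by_contra hv0
    exact h.an v hv0 hv

/-- **[H-CNT]** in the literal of the bridge -/
theorem cntW_su [Fact (Continuous (starRingEnd ℂ))] (h : NfD (starRingEnd ℂ) 1 J₀ 0)
    (hw : w ≠ 0) (hσ : starRingEnd ℂ w = w) (μ₁ : Measure ℂ)
    (μ₂ : Measure (V2 (starRingEnd ℂ) 1)) {N n : ℕ}
    {Λ : (Idx (0 + 2) ι → ℂ) ≃ₗ[ℂ] (Fin N → ℂ)} {c : ℂ} {D : Matrix (Fin N) (Fin N) ℂ}
    (hD : Dg Λ (starRingEnd ℂ) (hyp (0 + 2) 1 J₀) c D) (e : Idx (0 + 2) ι ≃ Fin (n + 1))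
    {c₀ : ℝ} {F : Finset (SGr (starRingEnd ℂ) (hyp (0 + 2) 1 J₀) 1)}
    {bp : FormGroup (starRingEnd ℂ) (hyp (0 + 2) 1 J₀) →
      SGr (starRingEnd ℂ) (hyp (0 + 2) 1 J₀) 1}
    {bm : FormGroup (starRingEnd ℂ) (hyp (0 + 2) 1 J₀) →
      SGr (starRingEnd ℂ) (hyp (0 + 2) 1 J₀) (0 + 2)} (hc : 0 < c₀) (hbp : BpX c₀ F bp) :
    CntW (fun {K} _ _ U => O1 (XH Λ (starRingEnd ℂ) (hyp (0 + 2) 1 J₀)) D U)
      (lt h.frm hw hσ μ₁ μ₂) (gau e (0 + 2) (MonoidHom.id _) bp bm) :=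
  cntW_O1 fun q hq hud r u v C δ hδ h1 h2 => by
    obtain ⟨C₀, δ₀, hC₀, hδ₀, hδ1, H⟩ := dictH1 hD hδ h1 h2
    exact H574.H.wcH h.hn h.frm (an_hf h) hw hσ μ₁ μ₂ e hc hbp hq hud hC₀ hδ₀ hδ1 H

/-- **The core, all amplifications, for every admissible source group over `SU(2, n)`.** -/
theorem coreAllE_su_adm [Fact (Continuous (starRingEnd ℂ))] {E : Type} [Group E]
    [TopologicalSpace E] [IsTopologicalGroup E] [LocallyCompactSpace E]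
    [SecondCountableTopology E] [T2Space E]
    {i : FormGroup (starRingEnd ℂ) (hyp (0 + 2) 1 J₀) →* E} (h : NfD (starRingEnd ℂ) 1 J₀ 0)
    (hw : w ≠ 0) (hσ : starRingEnd ℂ w = w) (hw1 : ‖w‖ < 1) (μ₁ : Measure ℂ)
    (μ₂ : Measure (V2 (starRingEnd ℂ) 1)) [μ₁.IsAddHaarMeasure] [μ₂.IsAddHaarMeasure]
    (hA : Adm (lt h.frm hw hσ μ₁ μ₂) i) : CoreAllE E := by
  have hF := h.frm
  have hW := h.wi
  have hσn := h.hn
  have hG := geo hF hW hσn hw hσ hw1 μ₁ μ₂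
  haveI := H71.CLG.v2_proper (σ := starRingEnd ℂ) (ε := (1 : ℂ)) hσn
  obtain ⟨N, ⟨e⟩⟩ := exists_eqv 0 ι
  obtain ⟨Λ, c, D, hD⟩ := exists_dg hF e
  obtain ⟨c₀, F, bp, bm, hc, hbp, hT⟩ := gauOk_x locK_complex hσn e hF hW hw hσ μ₁ μ₂
  have hOne : OneStmtR (fun {K} _ _ U => O1 (XH Λ (starRingEnd ℂ) (hyp (0 + 2) 1 J₀)) D U)
      (lt hF hw hσ μ₁ μ₂) := @oneStmtR_ltH ι _ _ J₀ _ h w hw hσ hw1 μ₁ μ₂ _ _ (N + 1) Λ c D hD
  have hM : H21.C.MassStmt (lt hF hw hσ μ₁ μ₂) (gau e (0 + 2) (MonoidHom.id _) bp bm) i := by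
    have h1 := @H21.C.massStmt_lt ℂ _ _ _ ι _ _ 0 N (starRingEnd ℂ) 1 J₀ _ locK_complex hσn e hF
      hW w hw hσ hw1 μ₁ μ₂ hG
      (fun p hp => H874.CLAdm.hmg_frm hσn (frm_p hF hp)) bp bm E _ _ _ _ _ _ i hA
    exact @h1
  obtain ⟨g1, g2⟩ := H71.CLP.gap_lt hF hσn locK_complex hw hσ hw1 h.two
  have hX : ExHalfTW (lt hF hw hσ μ₁ μ₂) (gau e (0 + 2) (MonoidHom.id _) bp bm) i := by
    apply exHalfTW_of hG hT (H923.CLI.ovlStmt hT hσn hW) hA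
      (inferInstanceAs (IsFiniteMeasureOnCompacts μ₁))
      (inferInstanceAs (IsFiniteMeasureOnCompacts μ₂))
      (inferInstanceAs μ₁.IsOpenPosMeasure)
      (H71.CLG.sprL hF hσn hw hσ hw1 μ₁ μ₂) (uniC_lt hσn hw hσ hw1 μ₁ μ₂ hF) g1 g2
    exact @hM
  have hC : CntW (fun {K} _ _ U => O1 (XH Λ (starRingEnd ℂ) (hyp (0 + 2) 1 J₀)) D U)
      (lt hF hw hσ μ₁ μ₂) (gau e (0 + 2) (MonoidHom.id _) bp bm) :=
    @cntW_su ι _ _ J₀ w _ h hw hσ μ₁ μ₂ (N + 1) N Λ c D hD e c₀ F bp bm hc hbp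
  have hR : ExHalfRT (fun {K} _ _ U => O1 (XH Λ (starRingEnd ℂ) (hyp (0 + 2) 1 J₀)) D U)
      (lt hF hw hσ μ₁ μ₂) i := exHalfRT_of_W hC hX
  have hAm : AmpR (fun {K} _ _ U => O1 (XH Λ (starRingEnd ℂ) (hyp (0 + 2) 1 J₀)) D U) :=
    @ampR_O1 (N + 1) (SGr (starRingEnd ℂ) (hyp (0 + 2) 1 J₀) 1) _ _
      (XH Λ (starRingEnd ℂ) (hyp (0 + 2) 1 J₀)) D
  have hTw : TwR (fun {K} _ _ U => O1 (XH Λ (starRingEnd ℂ) (hyp (0 + 2) 1 J₀)) D U) :=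
    @twR_O1 (N + 1) (SGr (starRingEnd ℂ) (hyp (0 + 2) 1 J₀) 1) _ _
      (XH Λ (starRingEnd ℂ) (hyp (0 + 2) 1 J₀)) D
  exact coreAllE_admR hσn hw hσ hw1 μ₁ μ₂ hF hW hA hAm hTw hOne hR

/-- **The core, all amplifications, for `PSU(2, n)`.** -/
theorem coreAllE_su (ι : Type) [Fintype ι] [DecidableEq ι] (J₀ : Matrix ι ι ℂ)
    (h : NfD (starRingEnd ℂ) 1 J₀ 0) : CoreAllE (FormGroup (starRingEnd ℂ) (hyp (0 + 2) 1 J₀) ⧸
      Subgroup.center (FormGroup (starRingEnd ℂ) (hyp (0 + 2) 1 J₀))) := by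
  have hF := h.frm
  have hσn := h.hn
  haveI : Fact (Continuous (starRingEnd ℂ)) := ⟨continuous_of_norm hσn⟩
  haveI := H71.CLG.v2_proper (σ := starRingEnd ℂ) (ε := (1 : ℂ)) hσn
  haveI := H874.CLAdm.t2_quo hF
    (Z := Subgroup.center (FormGroup (starRingEnd ℂ) (hyp (0 + 2) 1 J₀))) le_rfl
  haveI := H874.CLAdm.lc_quo hσn
    (Subgroup.center (FormGroup (starRingEnd ℂ) (hyp (0 + 2) 1 J₀)))
  haveI := H874.CLAdm.sc_quo
    (Subgroup.center (FormGroup (starRingEnd ℂ) (hyp (0 + 2) 1 J₀)))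
  have hw : (1 / 2 : ℂ) ≠ 0 := by norm_num
  have hσ : starRingEnd ℂ (1 / 2 : ℂ) = 1 / 2 := by
    rw [map_div₀, map_one, map_ofNat]
  have hw1 : ‖(1 / 2 : ℂ)‖ < 1 := by
    rw [norm_div, norm_one, RCLike.norm_ofNat]
    norm_num
  exact coreAllE_su_adm h hw hσ hw1 Measure.addHaar Measure.addHaar
    (H874.CLAdm.adm_cen hσn hF hw hσ _ _)

/-- **The class `LatticeUC`, all amplifications**: all ICC lattices of `SU(2, n)/Z`. -/
theorem superAll_su : ∀ (Γ : Type) [Group Γ], UN.LatticeUC Γ → UN.SuperAll Γ :=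
  superAll_latticeUC fun ι _ _ J₀ h => coreAllE_su ι J₀ h

end Vale.Agent.P092.H99.HT
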